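import Mathlib.MeasureTheory.Integral.MeanInequalities
import Mathlib.MeasureTheory.Function.LpSeminorm.Basic
import Mathlib.Analysis.SpecialFunctions.Pow.NNReal
import Mathlib.MeasureTheory.Constructions.BorelSpace.Complex

/-!
P122 (helper286): the Christ-Kiselev lemma for finitely many steps, by induction on the number of
steps, halving the mass.
-/

namespace Vale.Agent.P122.H286M

open MeasureTheory Set
open scoped ENNReal NNReal

variable {Y : Type*} [MeasurableSpace Y]

/-- the `L^q` norm of a nonnegative function -/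
noncomputable def Nq (ν : Measure Y) (q : ℝ) (u : Y → ℝ≥0∞) : ℝ≥0∞ :=
  (∫⁻ y, u y ^ q ∂ν) ^ (1 / q)

lemma Nq_mono (ν : Measure Y) {q : ℝ} (hq : 0 < q) {u v : Y → ℝ≥0∞} (h : ∀ y, u y ≤ v y) :
    Nq ν q u ≤ Nq ν q v := by
  unfold Nq
  gcongr with y
  exact h y

lemma Nq_add (ν : Measure Y) {q : ℝ} (hq : 1 ≤ q) {u v : Y → ℝ≥0∞} (hu : Measurable u)
    (hv : Measurable v) : Nq ν q (fun y => u y + v y) ≤ Nq ν q u + Nq ν q v :=
  ENNReal.lintegral_Lp_add_le hu.aemeasurable hv.aemeasurable hq

lemma Nq_rpow (ν : Measure Y) {q : ℝ} (hq : 0 < q) (u : Y → ℝ≥0∞) :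
    Nq ν q u ^ q = ∫⁻ y, u y ^ q ∂ν := by
  unfold Nq
  rw [← ENNReal.rpow_mul, one_div_mul_cancel hq.ne', ENNReal.rpow_one]

lemma Nq_max (ν : Measure Y) {q : ℝ} (hq : 0 < q) {u v : Y → ℝ≥0∞} (hu : Measurable u) :
    Nq ν q (fun y => max (u y) (v y)) ≤ (Nq ν q u ^ q + Nq ν q v ^ q) ^ (1 / q) := by
  rw [Nq_rpow ν hq, Nq_rpow ν hq, ← lintegral_add_left (hu.pow_const q)]
  unfold Nq
  gcongr with y
  change max (u y) (v y) ^ q ≤ u y ^ q + v y ^ q
  rcases le_total (u y) (v y) with h | h
  · rw [max_eq_right h]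
    exact le_add_self
  · rw [max_eq_left h]
    exact le_self_add

/-- the maximal function of the steps `m, ..., n` -/
noncomputable def Mx (S : ℕ → Y → ℂ) (m n : ℕ) (y : Y) : ℝ≥0∞ :=
  ⨆ k ∈ Icc m n, ‖S k y - S m y‖ₑ

lemma measurable_Mx {S : ℕ → Y → ℂ} (hS : ∀ n, Measurable (S n)) (m n : ℕ) :
    Measurable (Mx S m n) := by
  refine Measurable.biSup _ (to_countable _) fun k _ => ?_
  exact ((hS k).sub (hS m)).enorm

/-- **Christ-Kiselev, finitely many steps.** -/
theorem finite_CK (ν : Measure Y) {q r : ℝ} (hr : 1 ≤ r) (hrq : r < q) {C K : ℝ} (hC : 0 ≤ C)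
    (hK : K = C / (1 - 2 ^ (1 / q - 1 / r) : ℝ)) (S : ℕ → Y → ℂ) (hS : ∀ n, Measurable (S n))
    (A : ℕ → ℝ) (hA : Monotone A)
    (h : ∀ m n, m ≤ n → Nq ν q (fun y => ‖S n y - S m y‖ₑ)
      ≤ ENNReal.ofReal (C * (A n - A m) ^ (1 / r))) :
    ∀ d m : ℕ, Nq ν q (Mx S m (m + d)) ≤ ENNReal.ofReal (K * (A (m + d) - A m) ^ (1 / r)) := by
  have hq1 : 1 < q := hr.trans_lt hrq
  have hq0 : 0 < q := by linarith
  have hr0 : 0 < r := by linarith
  have hθ : (2 : ℝ) ^ (1 / q - 1 / r) < 1 := by
    apply Real.rpow_lt_one_of_one_lt_of_neg (by norm_num)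
    have : 1 / q < 1 / r := one_div_lt_one_div_of_lt hr0 hrq
    linarith
  have hK0 : 0 ≤ K := by
    rw [hK]
    exact div_nonneg hC (by linarith)
  have hKeq : C + K * (2 : ℝ) ^ (1 / q - 1 / r) = K := by
    have : K * (1 - (2 : ℝ) ^ (1 / q - 1 / r)) = C := by
      rw [hK]
      exact div_mul_cancel₀ _ (by linarith)
    linarith
  intro d
  induction d using Nat.strong_induction_on with
  | _ d ih =>
    intro m
    rcases Nat.eq_zero_or_pos d with hd | hd
    · subst hd
      have h0 : ∀ y, Mx S m (m + 0) y ≤ 0 := by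
        intro y
        refine iSup₂_le fun k hk => ?_
        have : k = m := le_antisymm (by simpa using hk.2) hk.1
        subst this
        simp
      have h1 : Nq ν q (Mx S m (m + 0)) ≤ Nq ν q (fun _ => 0) := Nq_mono ν hq0 h0
      have h2 : Nq ν q (fun _ => 0) = 0 := by
        unfold Nq
        simp [ENNReal.zero_rpow_of_pos hq0, hq0]
      rw [h2] at h1
      exact h1.trans bot_le
    · set D : ℝ := A (m + d) - A m with hD
      have hD0 : 0 ≤ D := sub_nonneg.2 (hA (by omega))
      have hex : ∃ j, D / 2 ≤ A (m + j + 1) - A m := by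
        refine ⟨d - 1, ?_⟩
        have : m + (d - 1) + 1 = m + d := by omega
        rw [this]
        linarith
      classical
      set k := Nat.find hex with hk
      have hk1 : D / 2 ≤ A (m + k + 1) - A m := Nat.find_spec hex
      have hkd : k ≤ d - 1 := by
        apply Nat.find_min' hex
        have : m + (d - 1) + 1 = m + d := by omega
        rw [this]
        linarith
      have hk2 : A (m + k) - A m ≤ D / 2 := by
        rcases Nat.eq_zero_or_pos k with h0 | h0
        · rw [h0]
          simp only [add_zero, sub_self]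
          linarith
        · have := Nat.find_min hex (m := k - 1) (by omega)
          rw [not_le] at this
          have e : m + (k - 1) + 1 = m + k := by omega
          rw [e] at this
          exact this.le
      have hk3 : A (m + d) - A (m + k + 1) ≤ D / 2 := by
        rw [hD] at hk1 ⊢
        linarith
      have e : m + k + 1 + (d - k - 1) = m + d := by omega
      have ih1 := ih k (by omega) m
      have ih2 := ih (d - k - 1) (by omega) (m + k + 1)
      rw [e] at ih2
      have hD2 : (0 : ℝ) ≤ D / 2 := by linarith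
      have b1 : Nq ν q (Mx S m (m + k)) ≤ ENNReal.ofReal (K * (D / 2) ^ (1 / r)) := by
        refine ih1.trans (ENNReal.ofReal_le_ofReal ?_)
        have h0 : 0 ≤ A (m + k) - A m := sub_nonneg.2 (hA (by omega))
        gcongr
      have b2 : Nq ν q (Mx S (m + k + 1) (m + d)) ≤ ENNReal.ofReal (K * (D / 2) ^ (1 / r)) := by
        refine ih2.trans (ENNReal.ofReal_le_ofReal ?_)
        have h0 : 0 ≤ A (m + d) - A (m + k + 1) := sub_nonneg.2 (hA (by omega))
        gcongr
      have b3 : Nq ν q (fun y => ‖S (m + k + 1) y - S m y‖ₑ)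
          ≤ ENNReal.ofReal (C * D ^ (1 / r)) := by
        refine (h m (m + k + 1) (by omega)).trans (ENNReal.ofReal_le_ofReal ?_)
        have h0 : 0 ≤ A (m + k + 1) - A m := sub_nonneg.2 (hA (by omega))
        have h1 : A (m + k + 1) - A m ≤ D := by
          have := hA (show m + k + 1 ≤ m + d by omega)
          linarith
        gcongr
      have hpt : ∀ y, Mx S m (m + d) y ≤ ‖S (m + k + 1) y - S m y‖ₑ
          + max (Mx S m (m + k) y) (Mx S (m + k + 1) (m + d) y) := by
        intro y
        refine iSup₂_le fun j hj => ?_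
        rcases le_or_gt j (m + k) with hjk | hjk
        · have : ‖S j y - S m y‖ₑ ≤ Mx S m (m + k) y :=
            le_iSup₂ (f := fun i (_ : i ∈ Icc m (m + k)) => ‖S i y - S m y‖ₑ) j ⟨hj.1, hjk⟩
          exact (this.trans (le_max_left _ _)).trans le_add_self
        · have h1 : ‖S j y - S (m + k + 1) y‖ₑ ≤ Mx S (m + k + 1) (m + d) y :=
            le_iSup₂ (f := fun i (_ : i ∈ Icc (m + k + 1) (m + d)) =>
              ‖S i y - S (m + k + 1) y‖ₑ) j ⟨by omega, hj.2⟩
          have h2 : S j y - S m y = (S (m + k + 1) y - S m y) + (S j y - S (m + k + 1) y) := by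
            ring
          rw [h2]
          exact (enorm_add_le _ _).trans (add_le_add le_rfl (h1.trans (le_max_right _ _)))
      have hm1 : Measurable (fun y => ‖S (m + k + 1) y - S m y‖ₑ) :=
        ((hS _).sub (hS _)).enorm
      have hm2 := measurable_Mx hS m (m + k)
      have hm3 := measurable_Mx hS (m + k + 1) (m + d)
      calc Nq ν q (Mx S m (m + d))
          ≤ Nq ν q (fun y => ‖S (m + k + 1) y - S m y‖ₑ
            + max (Mx S m (m + k) y) (Mx S (m + k + 1) (m + d) y)) := Nq_mono ν hq0 hpt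
        _ ≤ Nq ν q (fun y => ‖S (m + k + 1) y - S m y‖ₑ)
            + Nq ν q (fun y => max (Mx S m (m + k) y) (Mx S (m + k + 1) (m + d) y)) :=
          Nq_add ν hq1.le hm1 (hm2.max hm3)
        _ ≤ ENNReal.ofReal (C * D ^ (1 / r))
            + (ENNReal.ofReal (K * (D / 2) ^ (1 / r)) ^ q
              + ENNReal.ofReal (K * (D / 2) ^ (1 / r)) ^ q) ^ (1 / q) := by
          refine add_le_add b3 ((Nq_max ν hq0 hm2).trans ?_)
          gcongr
        _ = ENNReal.ofReal (C * D ^ (1 / r))
            + ENNReal.ofReal (K * (D / 2) ^ (1 / r) * 2 ^ (1 / q)) := by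
          congr 1
          have hx : 0 ≤ K * (D / 2) ^ (1 / r) := by positivity
          rw [← two_mul, ENNReal.mul_rpow_of_nonneg _ _ (by positivity), ← ENNReal.rpow_mul,
            mul_one_div_cancel hq0.ne', ENNReal.rpow_one, ENNReal.ofReal_mul hx, mul_comm,
            ← ENNReal.ofReal_rpow_of_pos (by norm_num : (0 : ℝ) < 2)]
          norm_num
        _ = ENNReal.ofReal (K * D ^ (1 / r)) := by
          rw [← ENNReal.ofReal_add (by positivity) (by positivity)]
          congr 1
          have h1 : (D / 2) ^ (1 / r) = D ^ (1 / r) * (2 : ℝ) ^ (-(1 / r)) := by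
            rw [Real.div_rpow hD0 (by norm_num), Real.rpow_neg (by norm_num), div_eq_mul_inv]
          have h2 : (2 : ℝ) ^ (1 / q - 1 / r) = 2 ^ (-(1 / r)) * 2 ^ (1 / q) := by
            rw [← Real.rpow_add (by norm_num)]
            congr 1
            ring
          rw [h1]
          calc C * D ^ (1 / r) + K * (D ^ (1 / r) * 2 ^ (-(1 / r))) * 2 ^ (1 / q)
              = (C + K * (2 ^ (-(1 / r)) * 2 ^ (1 / q))) * D ^ (1 / r) := by ring
            _ = _ := by rw [← h2, hKeq]

end Vale.Agent.P122.H286M
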