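import Vale.Agent.P122.H286M.Max
import Mathlib.MeasureTheory.Function.LpSeminorm.CompareExp

/-!
P122 (helper286): almost everywhere convergence of the truncated Fourier integrals.
-/

namespace Vale.Agent.P122.H286M

open MeasureTheory Set Filter Topology Metric Real
open scoped ENNReal NNReal FourierTransform

variable {V : Type*} [NormedAddCommGroup V] [InnerProductSpace ℝ V] [MeasurableSpace V]
  [BorelSpace V] [FiniteDimensional ℝ V]

/-- the tail of `g` -/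
noncomputable def tail (g : V → ℂ) (ρ : ℝ) : V → ℂ := (ball (0 : V) ρ)ᶜ.indicator g

lemma memLp_tail {g : V → ℂ} {r : ℝ≥0∞} (hg : MemLp g r volume) (ρ : ℝ) :
    MemLp (tail g ρ) r volume := hg.indicator measurableSet_ball.compl

lemma tendsto_tail {g : V → ℂ} {r : ℝ} (hr : 1 ≤ r) (hg : MemLp g (ENNReal.ofReal r) volume) :
    Tendsto (fun n : ℕ => eLpNorm (tail g n) (ENNReal.ofReal r) volume) atTop (𝓝 0) := by
  have hr0 : 0 < r := by linarith
  have h1 : Tendsto (fun n : ℕ => ∫⁻ x, ‖tail g n x‖ₑ ^ r) atTop (𝓝 (∫⁻ _ : V, 0)) := by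
    refine tendsto_lintegral_of_dominated_convergence' (fun x => ‖g x‖ₑ ^ r) ?_ ?_ ?_ ?_
    · intro n
      exact ((memLp_tail hg n).1.enorm).pow_const r
    · intro n
      refine Eventually.of_forall fun x => ?_
      apply ENNReal.rpow_le_rpow _ hr0.le
      unfold tail
      by_cases h : x ∈ (ball (0 : V) n)ᶜ
      · rw [indicator_of_mem h]
      · rw [indicator_of_notMem h, enorm_zero]
        exact bot_le
    · exact (lintegral_lt_top hr hg).ne
    · refine Eventually.of_forall fun x => ?_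
      obtain ⟨N, hN⟩ := exists_nat_gt ‖x‖
      refine Tendsto.congr' ?_ tendsto_const_nhds
      filter_upwards [eventually_ge_atTop N] with n hn
      have h2 : x ∈ ball (0 : V) n := by
        rw [mem_ball_zero_iff]
        exact hN.trans_le (by exact_mod_cast hn)
      unfold tail
      rw [indicator_of_notMem (show x ∉ (ball (0 : V) n)ᶜ from fun h => h h2), enorm_zero,
        ENNReal.zero_rpow_of_pos hr0]
  rw [lintegral_zero] at h1
  have h2 := (ENNReal.continuous_rpow_const (y := 1 / r)).tendsto 0 |>.comp h1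
  rw [ENNReal.zero_rpow_of_pos (by positivity)] at h2
  refine h2.congr fun n => ?_
  rw [eLpNorm_eq _ _ hr]
  rfl

lemma PF_sub_tail {g : V → ℂ} {r : ℝ≥0∞} (hr : 1 ≤ r) (hg : MemLp g r volume) {ρ R : ℝ}
    (h : ρ ≤ R) (ξ : V) : PF g R ξ - PF g ρ ξ = PF (tail g ρ) R ξ := by
  rw [PF_sub hr hg h]
  unfold PF tail
  rw [indicator_indicator]
  rfl

lemma enorm_PF_sub_le {g : V → ℂ} {r : ℝ≥0∞} (hr : 1 ≤ r) (hg : MemLp g r volume) {ρ R R' : ℝ}
    (h : ρ ≤ R) (h' : ρ ≤ R') (ξ : V) :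
    ‖PF g R ξ - PF g R' ξ‖ₑ ≤ 2 * Mf (tail g ρ) ξ := by
  have e : PF g R ξ - PF g R' ξ = PF (tail g ρ) R ξ - PF (tail g ρ) R' ξ := by
    rw [← PF_sub_tail hr hg h, ← PF_sub_tail hr hg h']
    ring
  rw [e, two_mul]
  refine (enorm_sub_le).trans (add_le_add ?_ ?_)
  · exact le_iSup (fun R : ℝ => ‖PF (tail g ρ) R ξ‖ₑ) R
  · exact le_iSup (fun R : ℝ => ‖PF (tail g ρ) R ξ‖ₑ) R'

/-- a maximal estimate gives almost everywhere convergence -/
theorem ae_tendsto (ν : Measure V) {q r : ℝ} (hr : 1 ≤ r) (hq0 : 0 < q) {K : ℝ≥0∞}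
    (hK : K ≠ ⊤)
    (hM : ∀ g : V → ℂ, MemLp g (ENNReal.ofReal r) volume →
      Nq ν q (Mf g) ≤ K * eLpNorm g (ENNReal.ofReal r) volume)
    {g : V → ℂ} (hg : MemLp g (ENNReal.ofReal r) volume) :
    ∀ᵐ ξ ∂ν, ∃ z, Tendsto (fun R => PF g R ξ) atTop (𝓝 z) := by
  have hr1 : 1 ≤ ENNReal.ofReal r := by
    rw [← ENNReal.ofReal_one]
    exact ENNReal.ofReal_le_ofReal hr
  set O : V → ℝ≥0∞ := fun ξ => ⨅ n : ℕ, Mf (tail g n) ξ with hO
  have hOm : Measurable O := Measurable.iInf fun n => measurable_Mf hr1 (memLp_tail hg n)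
  have h1 : Nq ν q O ≤ 0 := by
    have h2 : Tendsto (fun n : ℕ => K * eLpNorm (tail g n) (ENNReal.ofReal r) volume) atTop
        (𝓝 (K * 0)) := ENNReal.Tendsto.const_mul (tendsto_tail hr hg) (Or.inr hK)
    rw [mul_zero] at h2
    refine ge_of_tendsto h2 (Eventually.of_forall fun n => ?_)
    exact (Nq_mono ν hq0 fun ξ => iInf_le _ n).trans (hM _ (memLp_tail hg n))
  have h3 : ∫⁻ ξ, O ξ ^ q ∂ν = 0 := by
    rw [← Nq_rpow ν hq0, le_zero_iff.1 h1, ENNReal.zero_rpow_of_pos hq0]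
  rw [lintegral_eq_zero_iff (hOm.pow_const q)] at h3
  filter_upwards [h3] with ξ hξ
  have h4 : O ξ = 0 := by
    have h5 : O ξ ^ q = 0 := hξ
    rcases (ENNReal.rpow_eq_zero_iff).1 h5 with h | h
    · exact h.1
    · linarith [h.2]
  have hc : CauchySeq (fun R : ℝ => PF g R ξ) := by
    rw [EMetric.cauchySeq_iff]
    intro ε hε
    have h6 : O ξ < ε / 2 := by
      rw [h4]
      exact ENNReal.half_pos hε.ne'
    obtain ⟨n, hn⟩ := iInf_lt_iff.1 h6
    refine ⟨n, fun R hR R' hR' => ?_⟩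
    rw [edist_eq_enorm_sub]
    calc ‖PF g R ξ - PF g R' ξ‖ₑ ≤ 2 * Mf (tail g n) ξ := enorm_PF_sub_le hr1 hg hR hR' ξ
      _ < 2 * (ε / 2) := by
          rw [ENNReal.mul_lt_mul_iff_right (by norm_num) (by norm_num)]
          exact hn
      _ = ε := ENNReal.mul_div_cancel (by norm_num) (by norm_num)
  exact cauchySeq_tendsto_of_complete hc

/-- the restriction operator given by the limit -/
theorem exists_restriction (ν : Measure V) {q r : ℝ} (hr : 1 ≤ r) (hq1 : 1 ≤ q) {K : ℝ≥0∞}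
    (hK : K ≠ ⊤)
    (hM : ∀ g : V → ℂ, MemLp g (ENNReal.ofReal r) volume →
      Nq ν q (Mf g) ≤ K * eLpNorm g (ENNReal.ofReal r) volume)
    {g : V → ℂ} (hg : MemLp g (ENNReal.ofReal r) volume) :
    ∃ h : V → ℂ, MemLp h (ENNReal.ofReal q) ν ∧
      eLpNorm h (ENNReal.ofReal q) ν ≤ K * eLpNorm g (ENNReal.ofReal r) volume ∧
      (∀ᵐ ξ ∂ν, Tendsto (fun R => PF g R ξ) atTop (𝓝 (h ξ))) ∧
      Tendsto (fun R => eLpNorm (fun ξ => PF g R ξ - h ξ) (ENNReal.ofReal q) ν) atTop (𝓝 0) := by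
  have hq0 : 0 < q := by linarith
  have hr1 : 1 ≤ ENNReal.ofReal r := by
    rw [← ENNReal.ofReal_one]
    exact ENNReal.ofReal_le_ofReal hr
  have hconv := ae_tendsto ν hr hq0 hK hM hg
  set h : V → ℂ := fun ξ => limUnder atTop (fun R : ℝ => PF g R ξ) with hh
  have hlim : ∀ᵐ ξ ∂ν, Tendsto (fun R => PF g R ξ) atTop (𝓝 (h ξ)) := by
    filter_upwards [hconv] with ξ hξ
    exact tendsto_nhds_limUnder hξ
  have hmeas : AEStronglyMeasurable h ν := by
    refine aestronglyMeasurable_of_tendsto_ae (u := atTop) (f := fun n : ℕ => PF g n)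
      (fun n => (measurable_PF hr1 hg n).aestronglyMeasurable) ?_
    filter_upwards [hlim] with ξ hξ
    exact hξ.comp tendsto_natCast_atTop_atTop
  have hbound : eLpNorm h (ENNReal.ofReal q) ν ≤ K * eLpNorm g (ENNReal.ofReal r) volume := by
    refine le_trans ?_ (hM g hg)
    rw [eLpNorm_eq _ _ hq1]
    unfold Nq
    gcongr ?_ ^ _
    refine lintegral_mono_ae ?_
    filter_upwards [hlim] with ξ hξ
    gcongr
    refine le_of_tendsto hξ.enorm (Eventually.of_forall fun R => ?_)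
    exact le_iSup (fun R : ℝ => ‖PF g R ξ‖ₑ) R
  refine ⟨h, ⟨hmeas, hbound.trans_lt (ENNReal.mul_lt_top hK.lt_top hg.2)⟩, hbound, hlim, ?_⟩
  have htail : ∀ n : ℕ, ∀ R : ℝ, (n : ℝ) ≤ R →
      eLpNorm (fun ξ => PF g R ξ - h ξ) (ENNReal.ofReal q) ν
        ≤ 2 * (K * eLpNorm (tail g n) (ENNReal.ofReal r) volume) := by
    intro n R hR
    refine le_trans ?_ (mul_le_mul_right (hM _ (memLp_tail hg n)) 2)
    rw [eLpNorm_eq _ _ hq1]
    unfold Nq
    have e2 : (2 : ℝ≥0∞) * (∫⁻ y, Mf (tail g n) y ^ q ∂ν) ^ (1 / q)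
        = (∫⁻ y, (2 * Mf (tail g n) y) ^ q ∂ν) ^ (1 / q) := by
      have : ∀ y, (2 * Mf (tail g n) y) ^ q = (2 : ℝ≥0∞) ^ q * Mf (tail g n) y ^ q := fun y =>
        ENNReal.mul_rpow_of_nonneg _ _ hq0.le
      simp only [this]
      rw [lintegral_const_mul _ ((measurable_Mf hr1 (memLp_tail hg n)).pow_const q),
        ENNReal.mul_rpow_of_nonneg _ _ (by positivity), ← ENNReal.rpow_mul,
        mul_one_div_cancel hq0.ne', ENNReal.rpow_one]
    rw [e2]
    gcongr ?_ ^ _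
    refine lintegral_mono_ae ?_
    filter_upwards [hlim] with ξ hξ
    gcongr
    have h5 : Tendsto (fun R' => ‖PF g R ξ - PF g R' ξ‖ₑ) atTop (𝓝 ‖PF g R ξ - h ξ‖ₑ) :=
      (tendsto_const_nhds.sub hξ).enorm
    refine le_of_tendsto h5 ?_
    filter_upwards [eventually_ge_atTop (n : ℝ)] with R' hR'
    exact enorm_PF_sub_le hr1 hg hR hR' ξ
  rw [ENNReal.tendsto_atTop_zero]
  intro ε hε
  have h6 : Tendsto (fun n : ℕ => 2 * (K * eLpNorm (tail g n) (ENNReal.ofReal r) volume)) atTop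
      (𝓝 (2 * (K * 0))) :=
    ENNReal.Tendsto.const_mul (ENNReal.Tendsto.const_mul (tendsto_tail hr hg) (Or.inr hK))
      (Or.inr (by norm_num))
  rw [mul_zero, mul_zero] at h6
  obtain ⟨n, hn⟩ := (h6.eventually (ge_mem_nhds hε)).exists
  exact ⟨n, fun R hR => (htail n R hR).trans hn⟩

/-- passing to a smaller exponent on a finite measure space -/
lemma Nq_le {X : Type*} [MeasurableSpace X] (ν : Measure X) {s q : ℝ} (hs : 0 < s) (hsq : s ≤ q)
    {u : X → ℝ≥0∞} (hu : Measurable u) :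
    Nq ν s u ≤ ν univ ^ (1 / s - 1 / q) * Nq ν q u := by
  have h := eLpNorm'_le_eLpNorm'_mul_rpow_measure_univ (μ := ν) hs hsq hu.aestronglyMeasurable
  rw [mul_comm] at h
  exact h

end Vale.Agent.P122.H286M
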