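import Vale.Agent.P122.H499.Defs

/-! # P122 / H286M / Defs : definitions for the statement (helper286) -/

open MeasureTheory Set Filter Topology
open scoped ENNReal NNReal FourierTransform

namespace Vale.Agent.P122.H286M

open Vale.Agent.P122.H499

/-- the truncated Fourier integral of `g` over the ball `|x| < R`, as a function of the frequency -/
noncomputable def truncated (g : R3 → ℂ) (R : ℝ) : R3 → ℂ := 𝓕 ((Metric.ball 0 R).indicator g)

/-- the maximal function `sup_R |∫_{|x| < R} g(x) e^{-2πi x·ξ} dx|` -/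
noncomputable def maximal (g : R3 → ℂ) (ξ : R3) : ℝ≥0∞ := ⨆ R : ℝ, ‖truncated g R ξ‖ₑ

/-- the maximal operator is bounded from `L^r(ℝ³)` to `L^s(S)` -/
def MaximalEstimate (S : Set R3) (r s : ℝ≥0∞) : Prop :=
  ∃ C : ℝ≥0, ∀ g : R3 → ℂ, MemLp g r volume →
    eLpNorm (maximal g) s (area S) ≤ C * eLpNorm g r volume

/-- every `g ∈ L^r(ℝ³)` has a Fourier transform on the surface `S`: the truncated Fourier
integrals converge at almost every point of `S`, and in `L^s(S)`, to a function `h`, with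
`‖h‖_{L^s(S)} ≤ C ‖g‖_{L^r(ℝ³)}` -/
def ConvergenceOnSurface (S : Set R3) (r s : ℝ≥0∞) : Prop :=
  ∃ C : ℝ≥0, ∀ g : R3 → ℂ, MemLp g r volume → ∃ h : R3 → ℂ, MemLp h s (area S) ∧
    eLpNorm h s (area S) ≤ C * eLpNorm g r volume ∧
    (∀ᵐ ξ ∂(area S), Tendsto (fun R => truncated g R ξ) atTop (𝓝 (h ξ))) ∧
    Tendsto (fun R => eLpNorm (fun ξ => truncated g R ξ - h ξ) s (area S)) atTop (𝓝 0)

end Vale.Agent.P122.H286M
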