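import Vale.Agent.P122.H286M.CK
import Mathlib.Analysis.Fourier.FourierTransform

/-!
P122 (helper286): a restriction estimate `L^r → L^q`, `q > r`, implies the maximal estimate for
the truncated Fourier integrals over the balls `|x| < R` and their almost everywhere convergence.
-/

namespace Vale.Agent.P122.H286M

open MeasureTheory Set Filter Topology Metric Real
open scoped ENNReal NNReal FourierTransform

variable {V : Type*} [NormedAddCommGroup V] [InnerProductSpace ℝ V] [MeasurableSpace V]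
  [BorelSpace V] [FiniteDimensional ℝ V]

/-- the truncated Fourier integral -/
noncomputable def PF (g : V → ℂ) (R : ℝ) : V → ℂ := 𝓕 ((ball (0 : V) R).indicator g)

/-- the maximal function -/
noncomputable def Mf (g : V → ℂ) (ξ : V) : ℝ≥0∞ := ⨆ R : ℝ, ‖PF g R ξ‖ₑ

lemma integrable_indicator {g : V → ℂ} {r : ℝ≥0∞} (hr : 1 ≤ r) (hg : MemLp g r volume)
    {s : Set V} (hs : MeasurableSet s) {R : ℝ} (hsR : s ⊆ ball 0 R) :
    Integrable (s.indicator g) volume := by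
  rw [integrable_indicator_iff hs]
  have h1 : MemLp g r (volume.restrict (ball (0 : V) R)) := hg.restrict _
  have : IsFiniteMeasure (volume.restrict (ball (0 : V) R)) := by
    refine ⟨?_⟩
    rw [Measure.restrict_apply_univ]
    exact measure_ball_lt_top
  have h2 : Integrable g (volume.restrict (ball (0 : V) R)) :=
    memLp_one_iff_integrable.1 (h1.mono_exponent hr)
  exact IntegrableOn.mono_set h2 hsR

lemma continuous_fourier {f : V → ℂ} (hf : Integrable f volume) : Continuous (𝓕 f) :=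
  VectorFourier.fourierIntegral_continuous Real.continuous_fourierChar
    (innerSL ℝ).continuous₂ hf

lemma fourier_sub' {f g : V → ℂ} (hf : Integrable f volume) (hg : Integrable g volume) (ξ : V) :
    𝓕 (fun x => f x - g x) ξ = 𝓕 f ξ - 𝓕 g ξ := by
  rw [Real.fourier_eq, Real.fourier_eq, Real.fourier_eq, ← integral_sub]
  · congr 1
    ext x
    rw [smul_sub]
  · exact (Real.fourierIntegral_convergent_iff ξ).2 hf
  · exact (Real.fourierIntegral_convergent_iff ξ).2 hg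

lemma PF_sub {g : V → ℂ} {r : ℝ≥0∞} (hr : 1 ≤ r) (hg : MemLp g r volume) {R R' : ℝ}
    (h : R ≤ R') (ξ : V) :
    PF g R' ξ - PF g R ξ = 𝓕 ((ball (0 : V) R' \ ball 0 R).indicator g) ξ := by
  unfold PF
  rw [← fourier_sub' (integrable_indicator hr hg measurableSet_ball subset_rfl)
    (integrable_indicator hr hg measurableSet_ball subset_rfl)]
  have e : (fun x => (ball (0 : V) R').indicator g x - (ball (0 : V) R).indicator g x)
      = (ball (0 : V) R' \ ball 0 R).indicator g := by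
    ext x
    by_cases h1 : x ∈ ball (0 : V) R
    · have h2 : x ∈ ball (0 : V) R' := ball_subset_ball h h1
      rw [indicator_of_mem h1, indicator_of_mem h2, sub_self,
        indicator_of_notMem fun h3 => h3.2 h1]
    · by_cases h2 : x ∈ ball (0 : V) R'
      · rw [indicator_of_notMem h1, indicator_of_mem h2, sub_zero,
          indicator_of_mem (show x ∈ ball (0 : V) R' \ ball 0 R from ⟨h2, h1⟩)]
      · rw [indicator_of_notMem h1, indicator_of_notMem h2, sub_zero,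
          indicator_of_notMem fun h3 => h2 h3.1]
  rw [e]

/-- the mass of the ball -/
noncomputable def mass (g : V → ℂ) (r : ℝ) (R : ℝ) : ℝ :=
  (∫⁻ x in ball (0 : V) R, ‖g x‖ₑ ^ r).toReal

lemma lintegral_lt_top {g : V → ℂ} {r : ℝ} (hr : 1 ≤ r) (hg : MemLp g (ENNReal.ofReal r) volume) :
    ∫⁻ x, ‖g x‖ₑ ^ r < ⊤ := by
  have h0 : ENNReal.ofReal r ≠ 0 := by
    rw [Ne, ENNReal.ofReal_eq_zero]
    linarith
  have h := hg.2
  rw [eLpNorm_lt_top_iff_lintegral_rpow_enorm_lt_top h0 ENNReal.ofReal_ne_top,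
    ENNReal.toReal_ofReal (by linarith)] at h
  exact h

lemma eLpNorm_eq {X : Type*} [MeasurableSpace X] (μ : Measure X) (g : X → ℂ) {r : ℝ}
    (hr : 1 ≤ r) :
    eLpNorm g (ENNReal.ofReal r) μ = (∫⁻ x, ‖g x‖ₑ ^ r ∂μ) ^ (1 / r) := by
  have h0 : ENNReal.ofReal r ≠ 0 := by
    rw [Ne, ENNReal.ofReal_eq_zero]
    linarith
  rw [eLpNorm_eq_lintegral_rpow_enorm_toReal h0 ENNReal.ofReal_ne_top,
    ENNReal.toReal_ofReal (by linarith)]

lemma lintegral_indicator_rpow {g : V → ℂ} {r : ℝ} (hr : 0 < r) {s : Set V}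
    (hs : MeasurableSet s) :
    ∫⁻ x, ‖s.indicator g x‖ₑ ^ r = ∫⁻ x in s, ‖g x‖ₑ ^ r := by
  rw [← lintegral_indicator hs]
  congr 1
  ext x
  by_cases h : x ∈ s
  · simp [h]
  · simp [h, hr]

lemma eLpNorm_annulus {g : V → ℂ} {r : ℝ} (hr : 1 ≤ r)
    (hg : MemLp g (ENNReal.ofReal r) volume) {R R' : ℝ} (h : R ≤ R') :
    eLpNorm ((ball (0 : V) R' \ ball 0 R).indicator g) (ENNReal.ofReal r) volume
      = ENNReal.ofReal ((mass g r R' - mass g r R) ^ (1 / r)) := by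
  have hr0 : 0 < r := by linarith
  have hms : MeasurableSet (ball (0 : V) R' \ ball 0 R) := measurableSet_ball.diff measurableSet_ball
  have hfin : ∀ s : Set V, ∫⁻ x in s, ‖g x‖ₑ ^ r < ⊤ := fun s =>
    (setLIntegral_le_lintegral s _).trans_lt (lintegral_lt_top hr hg)
  have hadd : ∫⁻ x in ball (0 : V) R', ‖g x‖ₑ ^ r = (∫⁻ x in ball (0 : V) R, ‖g x‖ₑ ^ r)
      + ∫⁻ x in ball (0 : V) R' \ ball 0 R, ‖g x‖ₑ ^ r := by
    have h1 : ball (0 : V) R' = ball 0 R ∪ (ball 0 R' \ ball 0 R) :=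
      (union_sdiff_cancel (ball_subset_ball h)).symm
    conv_lhs => rw [h1]
    exact lintegral_union hms disjoint_sdiff_right
  rw [eLpNorm_eq _ _ hr, lintegral_indicator_rpow hr0 hms, mass, mass, hadd,
    ENNReal.toReal_add (hfin _).ne (hfin _).ne, add_sub_cancel_left,
    ← ENNReal.ofReal_rpow_of_nonneg ENNReal.toReal_nonneg (by positivity),
    ENNReal.ofReal_toReal (hfin _).ne]

lemma mass_mono {g : V → ℂ} {r : ℝ} (hr : 1 ≤ r) (hg : MemLp g (ENNReal.ofReal r) volume) :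
    Monotone (mass g r) := by
  intro R R' h
  refine ENNReal.toReal_mono ?_ ?_
  · exact ((setLIntegral_le_lintegral _ _).trans_lt (lintegral_lt_top hr hg)).ne
  · exact lintegral_mono_set (ball_subset_ball h)

/-- the dyadic maximal function -/
noncomputable def Mj (g : V → ℂ) (j : ℕ) : V → ℝ≥0∞ :=
  Mx (fun i => PF g ((i : ℝ) / 2 ^ j)) 0 (0 + 4 ^ j)

lemma PF_zero (g : V → ℂ) {R : ℝ} (hR : R ≤ 0) (ξ : V) : PF g R ξ = 0 := by
  unfold PF
  rw [ball_eq_empty.2 hR, indicator_empty, Real.fourier_eq]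
  simp

lemma tendsto_PF {g : V → ℂ} {r : ℝ≥0∞} (hr : 1 ≤ r) (hg : MemLp g r volume) {R : ℝ}
    {u : ℕ → ℝ} (hu : ∀ n, u n ≤ R) (hlim : Tendsto u atTop (𝓝 R)) (ξ : V) :
    Tendsto (fun n => PF g (u n) ξ) atTop (𝓝 (PF g R ξ)) := by
  unfold PF
  simp only [Real.fourier_eq]
  have hR := integrable_indicator hr hg (measurableSet_ball (x := (0 : V)) (ε := R)) subset_rfl
  refine tendsto_integral_of_dominated_convergence (fun x => ‖(ball (0 : V) R).indicator g x‖)
    ?_ hR.norm ?_ ?_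
  · intro n
    exact ((Real.fourierIntegral_convergent_iff ξ).2
      (integrable_indicator hr hg measurableSet_ball (ball_subset_ball (hu n)))).1
  · intro n
    refine Eventually.of_forall fun x => ?_
    rw [Circle.norm_smul]
    by_cases h1 : x ∈ ball (0 : V) (u n)
    · have h2 : x ∈ ball (0 : V) R := ball_subset_ball (hu n) h1
      simp [h1, h2]
    · simp only [h1, not_false_eq_true, indicator_of_notMem, norm_zero]
      exact norm_nonneg _
  · refine Eventually.of_forall fun x => ?_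
    refine Tendsto.const_smul ?_ _
    by_cases h2 : x ∈ ball (0 : V) R
    · have h3 : ‖x‖ < R := mem_ball_zero_iff.1 h2
      have h4 : ∀ᶠ n in atTop, ‖x‖ < u n := hlim.eventually (lt_mem_nhds h3)
      refine Tendsto.congr' ?_ tendsto_const_nhds
      filter_upwards [h4] with n hn
      rw [indicator_of_mem h2, indicator_of_mem (mem_ball_zero_iff.2 hn)]
    · refine Tendsto.congr ?_ tendsto_const_nhds
      intro n
      rw [indicator_of_notMem h2, indicator_of_notMem fun h => h2 (ball_subset_ball (hu n) h)]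

lemma le_iSup_Mj {g : V → ℂ} {r : ℝ≥0∞} (hr : 1 ≤ r) (hg : MemLp g r volume) (ξ : V) :
    Mf g ξ ≤ ⨆ j, Mj g j ξ := by
  refine iSup_le fun R => ?_
  rcases le_or_gt R 0 with hR | hR
  · rw [PF_zero g hR, enorm_zero]
    exact bot_le
  · set i : ℕ → ℕ := fun j => ⌈R * 2 ^ j⌉₊ - 1 with hi
    have hp : ∀ j : ℕ, (0 : ℝ) < 2 ^ j := fun j => by positivity
    have h1 : ∀ j, ((i j : ℕ) : ℝ) / 2 ^ j ≤ R := by
      intro j
      rw [div_le_iff₀ (hp j)]
      have hc : 0 < ⌈R * 2 ^ j⌉₊ := Nat.ceil_pos.2 (mul_pos hR (hp j))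
      have h2 : i j < ⌈R * 2 ^ j⌉₊ := by
        simp only [hi]
        omega
      exact (Nat.lt_ceil.1 h2).le
    have h2 : ∀ j, R - 1 / 2 ^ j ≤ ((i j : ℕ) : ℝ) / 2 ^ j := by
      intro j
      rw [le_div_iff₀ (hp j), sub_mul, one_div_mul_cancel (hp j).ne']
      have hc : 0 < ⌈R * 2 ^ j⌉₊ := Nat.ceil_pos.2 (mul_pos hR (hp j))
      have h3 : ((i j : ℕ) : ℝ) = (⌈R * 2 ^ j⌉₊ : ℝ) - 1 := by
        simp only [hi]
        rw [Nat.cast_sub (by omega)]
        simp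
      rw [h3]
      have := Nat.le_ceil (R * 2 ^ j)
      linarith
    have h3 : Tendsto (fun j => ((i j : ℕ) : ℝ) / 2 ^ j) atTop (𝓝 R) := by
      refine tendsto_of_tendsto_of_tendsto_of_le_of_le ?_ tendsto_const_nhds h2 h1
      have h4 : Tendsto (fun j : ℕ => (1 / 2 : ℝ) ^ j) atTop (𝓝 0) :=
        tendsto_pow_atTop_nhds_zero_of_lt_one (by norm_num) (by norm_num)
      have h5 := (tendsto_const_nhds (x := R)).sub h4
      rw [sub_zero] at h5
      refine h5.congr fun j => ?_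
      rw [one_div_pow]
    have h4 := (tendsto_PF hr hg h1 h3 ξ).enorm
    obtain ⟨J, hJ⟩ := pow_unbounded_of_one_lt R (one_lt_two)
    refine le_of_tendsto h4 ?_
    filter_upwards [eventually_ge_atTop J] with j hj
    refine le_trans ?_ (le_iSup (fun j => Mj g j ξ) j)
    have hij : i j ≤ 4 ^ j := by
      have h5 : ((i j : ℕ) : ℝ) ≤ R * 2 ^ j := by
        have := h1 j
        rwa [div_le_iff₀ (hp j)] at this
      have h6 : R * 2 ^ j ≤ 2 ^ j * 2 ^ j := by
        have h7 : R ≤ 2 ^ j := hJ.le.trans (pow_le_pow_right₀ one_le_two hj)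
        exact mul_le_mul_of_nonneg_right h7 (hp j).le
      have h8 : (2 : ℝ) ^ j * 2 ^ j = 4 ^ j := by
        rw [← mul_pow]
        norm_num
      have h9 : ((i j : ℕ) : ℝ) ≤ ((4 ^ j : ℕ) : ℝ) := by
        push_cast
        linarith
      exact_mod_cast h9
    have h5 : ‖PF g (((i j : ℕ) : ℝ) / 2 ^ j) ξ - PF g (((0 : ℕ) : ℝ) / 2 ^ j) ξ‖ₑ ≤ Mj g j ξ :=
      le_iSup₂ (f := fun (k : ℕ) (_ : k ∈ Icc 0 (0 + 4 ^ j)) =>
        ‖PF g ((k : ℝ) / 2 ^ j) ξ - PF g (((0 : ℕ) : ℝ) / 2 ^ j) ξ‖ₑ) (i j)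
        ⟨Nat.zero_le _, by simpa using hij⟩
    rwa [PF_zero g (R := ((0 : ℕ) : ℝ) / 2 ^ j) (by simp), sub_zero] at h5

lemma Mj_le_Mf (g : V → ℂ) (j : ℕ) (ξ : V) : Mj g j ξ ≤ Mf g ξ := by
  refine iSup₂_le fun k _ => ?_
  change ‖PF g ((k : ℝ) / 2 ^ j) ξ - PF g (((0 : ℕ) : ℝ) / 2 ^ j) ξ‖ₑ ≤ Mf g ξ
  rw [PF_zero g (R := ((0 : ℕ) : ℝ) / 2 ^ j) (by simp), sub_zero]
  exact le_iSup (fun R : ℝ => ‖PF g R ξ‖ₑ) _

lemma Mj_mono (g : V → ℂ) (ξ : V) : Monotone fun j => Mj g j ξ := by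
  refine monotone_nat_of_le_succ fun j => ?_
  refine iSup₂_le fun k hk => ?_
  have e : (k : ℝ) / 2 ^ j = ((2 * k : ℕ) : ℝ) / 2 ^ (j + 1) := by
    push_cast
    rw [pow_succ]
    field_simp
  have e0 : ((0 : ℕ) : ℝ) / 2 ^ j = ((0 : ℕ) : ℝ) / 2 ^ (j + 1) := by simp
  change ‖PF g ((k : ℝ) / 2 ^ j) ξ - PF g (((0 : ℕ) : ℝ) / 2 ^ j) ξ‖ₑ ≤ Mj g (j + 1) ξ
  rw [e, e0]
  refine le_iSup₂ (f := fun (i : ℕ) (_ : i ∈ Icc 0 (0 + 4 ^ (j + 1))) =>
    ‖PF g ((i : ℝ) / 2 ^ (j + 1)) ξ - PF g (((0 : ℕ) : ℝ) / 2 ^ (j + 1)) ξ‖ₑ) (2 * k)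
    ⟨Nat.zero_le _, ?_⟩
  have := hk.2
  rw [pow_succ]
  omega

lemma measurable_PF {g : V → ℂ} {r : ℝ≥0∞} (hr : 1 ≤ r) (hg : MemLp g r volume) (R : ℝ) :
    Measurable (PF g R) :=
  (continuous_fourier (integrable_indicator hr hg measurableSet_ball subset_rfl)).measurable

lemma Mf_eq {g : V → ℂ} {r : ℝ≥0∞} (hr : 1 ≤ r) (hg : MemLp g r volume) :
    Mf g = fun ξ => ⨆ j, Mj g j ξ := by
  ext ξ
  exact le_antisymm (le_iSup_Mj hr hg ξ) (iSup_le fun j => Mj_le_Mf g j ξ)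

lemma measurable_Mj {g : V → ℂ} {r : ℝ≥0∞} (hr : 1 ≤ r) (hg : MemLp g r volume) (j : ℕ) :
    Measurable (Mj g j) := measurable_Mx (fun _ => measurable_PF hr hg _) _ _

lemma measurable_Mf {g : V → ℂ} {r : ℝ≥0∞} (hr : 1 ≤ r) (hg : MemLp g r volume) :
    Measurable (Mf g) := by
  rw [Mf_eq hr hg]
  exact Measurable.iSup fun j => measurable_Mj hr hg j

/-- **The maximal estimate.** -/
theorem max_bound (ν : Measure V) {q r : ℝ} (hr : 1 ≤ r) (hrq : r < q) {C K : ℝ} (hC : 0 ≤ C)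
    (hK : K = C / (1 - 2 ^ (1 / q - 1 / r) : ℝ))
    (hT : ∀ g : V → ℂ, Integrable g volume → MemLp g (ENNReal.ofReal r) volume →
      eLpNorm (𝓕 g) (ENNReal.ofReal q) ν
        ≤ ENNReal.ofReal C * eLpNorm g (ENNReal.ofReal r) volume)
    {g : V → ℂ} (hg : MemLp g (ENNReal.ofReal r) volume) :
    Nq ν q (Mf g) ≤ ENNReal.ofReal K * eLpNorm g (ENNReal.ofReal r) volume := by
  have hq1 : 1 < q := hr.trans_lt hrq
  have hq0 : 0 < q := by linarith
  have hr0 : 0 < r := by linarith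
  have hr1 : 1 ≤ ENNReal.ofReal r := by
    rw [← ENNReal.ofReal_one]
    exact ENNReal.ofReal_le_ofReal hr
  have hK0 : 0 ≤ K := by
    have hθ : (2 : ℝ) ^ (1 / q - 1 / r) < 1 := by
      apply Real.rpow_lt_one_of_one_lt_of_neg (by norm_num)
      have : 1 / q < 1 / r := one_div_lt_one_div_of_lt hr0 hrq
      linarith
    rw [hK]
    exact div_nonneg hC (by linarith)
  have hstep : ∀ j : ℕ, Nq ν q (Mj g j)
      ≤ ENNReal.ofReal K * eLpNorm g (ENNReal.ofReal r) volume := by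
    intro j
    have h1 := finite_CK ν hr hrq hC hK (fun i => PF g ((i : ℝ) / 2 ^ j))
      (fun i => measurable_PF hr1 hg _) (fun i => mass g r ((i : ℝ) / 2 ^ j))
      (fun a b hab => mass_mono hr hg (by gcongr)) (fun m n hmn => by
        have hRR : (m : ℝ) / 2 ^ j ≤ (n : ℝ) / 2 ^ j := by gcongr
        have h2 : (fun y => ‖PF g ((n : ℝ) / 2 ^ j) y - PF g ((m : ℝ) / 2 ^ j) y‖ₑ)
            = fun y => ‖𝓕 ((ball (0 : V) ((n : ℝ) / 2 ^ j) \ ball 0 ((m : ℝ) / 2 ^ j)).indicator g) y‖ₑ := by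
          ext y
          rw [PF_sub hr1 hg hRR]
        rw [h2]
        have h3 := hT _ (integrable_indicator hr1 hg (measurableSet_ball.diff measurableSet_ball)
          (sdiff_subset (s := ball (0 : V) ((n : ℝ) / 2 ^ j)) (t := ball 0 ((m : ℝ) / 2 ^ j))))
          (hg.indicator (measurableSet_ball.diff measurableSet_ball))
        rw [eLpNorm_eq _ _ hq1.le, eLpNorm_annulus hr hg hRR, ← ENNReal.ofReal_mul hC] at h3
        exact h3) (4 ^ j) 0
    refine h1.trans ?_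
    rw [ENNReal.ofReal_mul hK0, eLpNorm_eq _ _ hr]
    gcongr
    have h5 : ((0 : ℕ) : ℝ) / 2 ^ j ≤ ((0 + 4 ^ j : ℕ) : ℝ) / 2 ^ j := by
      gcongr
      exact Nat.zero_le _
    rw [← ENNReal.ofReal_rpow_of_nonneg (sub_nonneg.2 (mass_mono hr hg h5)) (by positivity)]
    gcongr
    refine (ENNReal.ofReal_le_ofReal (sub_le_self _ ENNReal.toReal_nonneg)).trans ?_
    unfold mass
    rw [ENNReal.ofReal_toReal]
    · exact setLIntegral_le_lintegral _ _
    · exact ((setLIntegral_le_lintegral _ _).trans_lt (lintegral_lt_top hr hg)).ne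
  have h2 : Nq ν q (Mf g) = ⨆ j, Nq ν q (Mj g j) := by
    rw [Mf_eq hr1 hg]
    unfold Nq
    have h3 : ∀ y, (⨆ j, Mj g j y) ^ q = ⨆ j, Mj g j y ^ q := fun y =>
      (ENNReal.orderIsoRpow q hq0).map_iSup _
    simp only [h3]
    rw [lintegral_iSup (fun j => (measurable_Mj hr1 hg j).pow_const q)]
    · exact (ENNReal.orderIsoRpow (1 / q) (by positivity)).map_iSup _
    · intro i j hij y
      exact ENNReal.rpow_le_rpow (Mj_mono g y hij) hq0.le
  rw [h2]
  exact iSup_le hstep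

end Vale.Agent.P122.H286M
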